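import Mathlib

/-!
# P113 (helper195): trajectories of a sequence of shears

`u t x = θ j t • G j x` for `t` in the `j`-th time window, where `G j` depends only on some passive
coordinates and does not move them. Trajectories are explicit.
-/

namespace Vale.Agent.P113.H195

open Set MeasureTheory

/-- `G` depends only on the coordinates in `P` and does not move them. -/
structure Passive {ι : Type*} (P : Set ι) (G : (ι → ℝ) → ι → ℝ) : Prop where
  zero : ∀ x, ∀ i ∈ P, G x i = 0
  dep : ∀ x y, (∀ i ∈ P, x i = y i) → G x = G y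

theorem Passive.add_smul {ι : Type*} {P : Set ι} {G : (ι → ℝ) → ι → ℝ} (h : Passive P G)
    (x : ι → ℝ) (c : ℝ) : G (x + c • G x) = G x := by
  refine h.dep _ _ fun i hi => ?_
  simp [h.zero x i hi]

theorem const_of_right_deriv_zero {f : ℝ → ℝ} {a b : ℝ} (hc : ContinuousOn f (Icc a b))
    (hd : ∀ x ∈ Ico a b, HasDerivWithinAt f 0 (Ici x) x) : ∀ x ∈ Icc a b, f x = f a :=
  constant_of_has_deriv_right_zero hc hd

/-- In one time window the trajectory is a segment. -/
theorem window_unique {ι : Type*} {P : Set ι} {G : (ι → ℝ) → ι → ℝ} (hG : Passive P G)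
    {θ : ℝ → ℝ} (hθ : Continuous θ) {a b : ℝ} {X : ℝ → ι → ℝ}
    (hc : ∀ i, ContinuousOn (fun t => X t i) (Icc a b))
    (hd : ∀ t ∈ Ico a b, ∀ i, HasDerivWithinAt (fun s => X s i) (θ t * G (X t) i) (Ici t) t) :
    ∀ t ∈ Icc a b, X t = X a + (∫ s in a..t, θ s) • G (X a) := by
  have hP : ∀ t ∈ Icc a b, ∀ i ∈ P, X t i = X a i := by
    intro t ht i hi
    refine const_of_right_deriv_zero (f := fun s => X s i) (hc i) (fun s hs => ?_) t ht
    have := hd s hs i
    rwa [hG.zero _ i hi, mul_zero] at this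
  have hGX : ∀ t ∈ Icc a b, G (X t) = G (X a) := fun t ht => hG.dep _ _ (hP t ht)
  have hI : ∀ t, HasDerivAt (fun r => ∫ s in a..r, θ s) (θ t) t := fun t =>
    intervalIntegral.integral_hasDerivAt_right (hθ.intervalIntegrable _ _)
      (hθ.stronglyMeasurableAtFilter _ _) hθ.continuousAt
  intro t ht
  funext i
  have key := const_of_right_deriv_zero (a := a) (b := b)
    (f := fun r => X r i - (∫ s in a..r, θ s) * G (X a) i)
    ((hc i).sub (Continuous.continuousOn (by
      refine Continuous.mul ?_ continuous_const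
      exact continuous_iff_continuousAt.2 fun r => (hI r).continuousAt))) (fun r hr => by
      have h1 := hd r hr i
      rw [hGX r ⟨hr.1, hr.2.le⟩] at h1
      have h2 := ((hI r).mul_const (G (X a) i)).hasDerivWithinAt (s := Ici r)
      have h3 := h1.fun_sub h2
      rwa [sub_self] at h3) t ht
  simp only [intervalIntegral.integral_same, zero_mul, sub_zero] at key
  simp only [Pi.add_apply, Pi.smul_apply, smul_eq_mul]
  linarith

/-- The sequence of the positions at the ends of the time windows. -/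
def orbit {ι : Type*} (G : ℕ → (ι → ℝ) → ι → ℝ) (a : ι → ℝ) : ℕ → ι → ℝ
  | 0 => a
  | j + 1 => orbit G a j + G j (orbit G a j)

/-- The `j`-th window of length `1 / N`. -/
def win (N j : ℕ) : Set ℝ := Icc ((j : ℝ) / N) ((j + 1 : ℝ) / N)

/-- A schedule: profiles `θ j`, supported in the `j`-th window, with integral one. -/
structure Sched (N : ℕ) (θ : ℕ → ℝ → ℝ) : Prop where
  pos : 0 < N
  cont : ∀ j, Continuous (θ j)
  nonneg : ∀ j t, 0 ≤ θ j t
  supp : ∀ (j : ℕ) (t : ℝ), t ∉ Ioo ((j : ℝ) / N) ((j + 1 : ℝ) / N) → θ j t = 0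
  int : ∀ j : ℕ, ∫ t in ((j : ℝ) / N)..((j + 1 : ℝ) / N), θ j t = 1

theorem exists_win {N : ℕ} (hN : 0 < N) {t : ℝ} (ht : 0 ≤ t) : ∃ j, t ∈ win N j := by
  have hN' : (0 : ℝ) < N := by exact_mod_cast hN
  refine ⟨⌊t * N⌋₊, ?_, ?_⟩
  · rw [div_le_iff₀ hN']
    exact Nat.floor_le (by positivity)
  · rw [le_div_iff₀ hN']
    exact (Nat.lt_floor_add_one _).le

variable {N : ℕ} {θ : ℕ → ℝ → ℝ}

/-- the fraction of the `j`-th shear made at time `t` -/
noncomputable def frac (N : ℕ) (θ : ℕ → ℝ → ℝ) (j : ℕ) (t : ℝ) : ℝ :=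
  ∫ s in ((j : ℝ) / N)..t, θ j s

theorem Sched.win_le (h : Sched N θ) (j : ℕ) : (j : ℝ) / N ≤ (j + 1 : ℝ) / N := by
  have hN' : (0 : ℝ) < N := by exact_mod_cast h.pos
  gcongr; linarith

theorem Sched.frac_le (h : Sched N θ) (j : ℕ) {t : ℝ} (ht : t ≤ (j : ℝ) / N) :
    frac N θ j t = 0 := by
  rw [frac, intervalIntegral.integral_symm, neg_eq_zero]
  apply intervalIntegral.integral_zero_ae
  filter_upwards with s hs
  rw [uIoc_of_le ht] at hs
  exact h.supp j s fun hs' => absurd hs.2 (not_le.2 hs'.1)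

theorem Sched.frac_ge (h : Sched N θ) (j : ℕ) {t : ℝ} (ht : (j + 1 : ℝ) / N ≤ t) :
    frac N θ j t = 1 := by
  have h1 : frac N θ j t = (∫ s in ((j : ℝ) / N)..((j + 1 : ℝ) / N), θ j s)
      + ∫ s in ((j + 1 : ℝ) / N)..t, θ j s :=
    (intervalIntegral.integral_add_adjacent_intervals ((h.cont j).intervalIntegrable _ _)
      ((h.cont j).intervalIntegrable _ _)).symm
  rw [h1, h.int, add_eq_left]
  apply intervalIntegral.integral_zero_ae
  filter_upwards with s hs
  rw [uIoc_of_le ht] at hs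
  exact h.supp j s fun hs' => absurd hs.1 (not_lt.2 hs'.2.le)

theorem Sched.frac_deriv (h : Sched N θ) (j : ℕ) (t : ℝ) : HasDerivAt (frac N θ j) (θ j t) t :=
  intervalIntegral.integral_hasDerivAt_right ((h.cont j).intervalIntegrable _ _)
    ((h.cont j).stronglyMeasurableAtFilter _ _) (h.cont j).continuousAt

theorem Sched.frac_mem (h : Sched N θ) (j : ℕ) (t : ℝ) : frac N θ j t ∈ Icc (0 : ℝ) 1 := by
  have hmono : Monotone (frac N θ j) := by
    refine monotone_of_deriv_nonneg (fun t => (h.frac_deriv j t).differentiableAt) fun t => ?_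
    rw [(h.frac_deriv j t).deriv]; exact h.nonneg j t
  constructor
  · have := hmono (min_le_left t ((j : ℝ) / N))
    rwa [h.frac_le j (min_le_right _ _)] at this
  · have := hmono (le_max_left t ((j + 1 : ℝ) / N))
    rwa [h.frac_ge j (le_max_right _ _)] at this

variable {ι : Type*} {P : ℕ → Set ι} {G : ℕ → (ι → ℝ) → ι → ℝ}
  {u : ℝ → (ι → ℝ) → ι → ℝ}

/-- Uniqueness: every trajectory is the explicit one. -/
theorem Sched.traj_unique (h : Sched N θ) (hG : ∀ j, Passive (P j) (G j))
    (hu : ∀ j, ∀ t ∈ win N j, ∀ x, u t x = θ j t • G j x) {X : ℝ → ι → ℝ}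
    (hX : ∀ t, 0 ≤ t → ∀ i, HasDerivWithinAt (fun s => X s i) (u t (X t) i) (Ici 0) t) :
    (∀ j : ℕ, X ((j : ℝ) / N) = orbit G (X 0) j) ∧
    ∀ j : ℕ, ∀ t ∈ win N j, X t = orbit G (X 0) j + frac N θ j t • G j (orbit G (X 0) j) := by
  have hN' : (0 : ℝ) < N := by exact_mod_cast h.pos
  have step : ∀ j : ℕ, ∀ t ∈ win N j,
      X t = X ((j : ℝ) / N) + frac N θ j t • G j (X ((j : ℝ) / N)) := by
    intro j
    have hj0 : (0 : ℝ) ≤ (j : ℝ) / N := by positivity
    refine window_unique (hG j) (h.cont j) (fun i t ht => ?_) (fun t ht i => ?_)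
    · exact ((hX t (hj0.trans ht.1) i).continuousWithinAt).mono
        (fun s hs => hj0.trans hs.1)
    · have h0 : 0 ≤ t := hj0.trans ht.1
      have h1 := (hX t h0 i).mono (fun s (hs : s ∈ Ici t) => h0.trans hs)
      rwa [hu j t ⟨ht.1, ht.2.le⟩, Pi.smul_apply, smul_eq_mul] at h1
  have horb : ∀ j : ℕ, X ((j : ℝ) / N) = orbit G (X 0) j := by
    intro j
    induction j with
    | zero => simp [orbit]
    | succ j ih =>
      have h1 := step j (((j + 1 : ℕ) : ℝ) / N)
        ⟨by push_cast; exact h.win_le j, by push_cast; exact le_rfl⟩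
      rw [h1, ih, h.frac_ge j (by push_cast; exact le_rfl), one_smul]
      rfl
  exact ⟨horb, fun j t ht => by rw [step j t ht, horb j]⟩

/-- The explicit trajectory. -/
noncomputable def traj (N : ℕ) (θ : ℕ → ℝ → ℝ) (G : ℕ → (ι → ℝ) → ι → ℝ) (a : ι → ℝ) (t : ℝ) :
    ι → ℝ :=
  a + ∑ j ∈ Finset.range (⌊t * N⌋₊ + 1), frac N θ j t • G j (orbit G a j)

theorem orbit_eq_sum (G : ℕ → (ι → ℝ) → ι → ℝ) (a : ι → ℝ) (j : ℕ) :
    orbit G a j = a + ∑ k ∈ Finset.range j, G k (orbit G a k) := by
  induction j with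
  | zero => simp [orbit]
  | succ j ih => rw [Finset.sum_range_succ, ← add_assoc, ← ih]; rfl

theorem Sched.traj_eq (h : Sched N θ) (a : ι → ℝ) {t : ℝ} {M : ℕ} (hM : t * N < M) :
    traj N θ G a t = a + ∑ j ∈ Finset.range M, frac N θ j t • G j (orbit G a j) := by
  have hN' : (0 : ℝ) < N := by exact_mod_cast h.pos
  have hz : ∀ j : ℕ, t * N ≤ j → frac N θ j t = 0 := fun j hj =>
    h.frac_le j (by rwa [le_div_iff₀ hN'])
  rw [traj]
  congr 1
  rcases le_total M (⌊t * N⌋₊ + 1) with hle | hle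
  · symm
    refine Finset.sum_subset (Finset.range_mono hle) fun j _ hj => ?_
    rw [hz j (hM.le.trans (by exact_mod_cast not_lt.1 (by simpa using hj))), zero_smul]
  · refine Finset.sum_subset (Finset.range_mono hle) fun j _ hj => ?_
    have hj' : ⌊t * N⌋₊ + 1 ≤ j := not_lt.1 (by simpa using hj)
    rw [hz j ((Nat.lt_floor_add_one _).le.trans (by exact_mod_cast hj')), zero_smul]

theorem Sched.traj_win (h : Sched N θ) (a : ι → ℝ) {j : ℕ} {t : ℝ} (ht : t ∈ win N j) :
    traj N θ G a t = orbit G a j + frac N θ j t • G j (orbit G a j) := by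
  have hN' : (0 : ℝ) < N := by exact_mod_cast h.pos
  have h1 : t * N ≤ j + 1 := by rw [← le_div_iff₀ hN']; exact ht.2
  rw [h.traj_eq a (M := j + 2) (by push_cast; linarith), Finset.sum_range_succ,
    Finset.sum_range_succ, h.frac_le (j + 1) (by push_cast; exact ht.2), zero_smul, add_zero,
    orbit_eq_sum G a j, ← add_assoc]
  congr 2
  refine Finset.sum_congr rfl fun k hk => ?_
  have hk' : k + 1 ≤ j := Finset.mem_range.1 hk
  rw [h.frac_ge k, one_smul]
  refine le_trans ?_ ht.1
  gcongr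
  exact_mod_cast hk'

theorem Sched.traj_zero (h : Sched N θ) (a : ι → ℝ) : traj N θ G a 0 = a := by
  have h0 : (0 : ℝ) ∈ win N 0 := by
    have hN' : (0 : ℝ) < N := by exact_mod_cast h.pos
    simp only [win, CharP.cast_eq_zero, zero_div, zero_add, mem_Icc, le_refl, true_and]
    positivity
  rw [h.traj_win a h0, h.frac_le 0 (by simp)]
  simp [orbit]

/-- Existence: the explicit curve is a trajectory. -/
theorem Sched.traj_deriv (h : Sched N θ) (hG : ∀ j, Passive (P j) (G j))
    (hu : ∀ j, ∀ t ∈ win N j, ∀ x, u t x = θ j t • G j x) (a : ι → ℝ) {t : ℝ} (ht : 0 ≤ t)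
    (i : ι) : HasDerivAt (fun s => traj N θ G a s i) (u t (traj N θ G a t) i) t := by
  have hN' : (0 : ℝ) < N := by exact_mod_cast h.pos
  obtain ⟨j, hj⟩ := exists_win h.pos ht
  have h1 : t * N ≤ j + 1 := by rw [← le_div_iff₀ hN']; exact hj.2
  have hev : (fun s => traj N θ G a s i) =ᶠ[nhds t] fun s => a i + ∑ k ∈ Finset.range (j + 2),
      frac N θ k s * G k (orbit G a k) i := by
    have : ∀ᶠ s in nhds t, s * N < ((j + 2 : ℕ) : ℝ) := by
      refine (continuous_id.mul continuous_const).continuousAt.eventually_lt continuousAt_const ?_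
      push_cast; show t * (N : ℝ) < _; linarith
    filter_upwards [this] with s hs
    rw [h.traj_eq a hs]
    simp
  refine HasDerivAt.congr_of_eventuallyEq ?_ hev
  have hsum : HasDerivAt (fun s => a i + ∑ k ∈ Finset.range (j + 2),
      frac N θ k s * G k (orbit G a k) i)
      (∑ k ∈ Finset.range (j + 2), θ k t * G k (orbit G a k) i) t := by
    refine HasDerivAt.const_add _ ?_
    refine HasDerivAt.fun_sum fun k _ => ?_
    exact (h.frac_deriv k t).mul_const _
  have hval : u t (traj N θ G a t) i = ∑ k ∈ Finset.range (j + 2), θ k t * G k (orbit G a k) i := by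
    rw [hu j t hj, h.traj_win a hj, (hG j).add_smul, Finset.sum_range_succ, Finset.sum_range_succ,
      h.supp (j + 1) t (fun h' => absurd h'.1 (not_lt.2 (by push_cast; exact hj.2))), zero_mul,
      add_zero, Finset.sum_eq_zero, zero_add]
    · rfl
    · intro k hk
      have hk' : k + 1 ≤ j := Finset.mem_range.1 hk
      rw [h.supp k t, zero_mul]
      intro h'
      refine absurd h'.2 (not_lt.2 (le_trans ?_ hj.1))
      gcongr
      exact_mod_cast hk'
  rw [hval]
  exact hsum

/-- Along the `j`-th window the trajectory stays on the segment between the `j`-th and the next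
position. -/
theorem Sched.traj_mem_segment (h : Sched N θ) (a : ι → ℝ) {j : ℕ} {t : ℝ} (ht : t ∈ win N j) :
    ∃ c ∈ Icc (0 : ℝ) 1, traj N θ G a t = orbit G a j + c • (orbit G a (j + 1) - orbit G a j) :=
  ⟨frac N θ j t, h.frac_mem j t, by rw [h.traj_win a ht]; simp [orbit]⟩

/-- `(u · ∇) u = 0` and `div u = 0` -/
theorem Passive.deriv_eq_zero {P : Set ι} {G : (ι → ℝ) → ι → ℝ} [DecidableEq ι] (hG : Passive P G)
    {k : ι} (hk : k ∉ P) (x : ι → ℝ) (r : ℝ) : G (Function.update x k r) = G x := by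
  refine hG.dep _ _ fun i hi => ?_
  rw [Function.update_of_ne]
  rintro rfl
  exact hk hi

end Vale.Agent.P113.H195
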