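import Mathlib
import Vale.Agent.P113.H195.Traj

/-!
# P113 (helper195): divergence and convective term of a passive field; periodised windows
-/

namespace Vale.Agent.P113.H195

open Set MeasureTheory

variable {ι : Type*} [DecidableEq ι]

theorem Passive.smul {ι : Type*} {P : Set ι} {G : (ι → ℝ) → ι → ℝ} (hG : Passive P G) (c : ℝ) :
    Passive P (fun x => c • G x) :=
  ⟨fun x i hi => by simp [hG.zero x i hi], fun x y h => by rw [hG.dep x y h]⟩

/-- A shear in direction `l`. -/
theorem passive_single (l : ι) (g : (ι → ℝ) → ℝ) (hg : ∀ x y, (∀ i, i ≠ l → x i = y i) → g x = g y) :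
    Passive {i | i ≠ l} (fun x => Pi.single l (g x) : (ι → ℝ) → ι → ℝ) :=
  ⟨fun x i hi => by simp [Pi.single_eq_of_ne (show i ≠ l from hi)],
    fun x y h => by rw [hg x y h]⟩

/-- A spatially constant field. -/
theorem passive_const {ι : Type*} (v : ι → ℝ) : Passive (∅ : Set ι) (fun _ : ι → ℝ => v) :=
  ⟨fun _ _ h => absurd h (Set.notMem_empty _), fun _ _ _ => rfl⟩

/-- The zero field. -/
theorem passive_zero {ι : Type*} (P : Set ι) : Passive P (fun _ : ι → ℝ => (0 : ι → ℝ)) :=
  ⟨fun _ _ _ => rfl, fun _ _ _ => rfl⟩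

section partialDeriv
variable {P : Set ι} {G : (ι → ℝ) → ι → ℝ}

theorem Passive.add_single (hG : Passive P G) {k : ι} (hk : k ∉ P) (x : ι → ℝ) (r : ℝ) :
    G (x + r • Pi.single k 1) = G x := by
  refine hG.dep _ _ fun i hi => ?_
  have : i ≠ k := by rintro rfl; exact hk hi
  simp [Pi.single_eq_of_ne this]

/-- `∂_k G_i = 0` if `k` is not passive (Fréchet form) -/
theorem Passive.fderiv_eq_zero [Fintype ι] (hG : Passive P G) {k : ι} (hk : k ∉ P) (x : ι → ℝ)
    (i : ι) : fderiv ℝ (fun y => G y i) x (Pi.single k 1) = 0 := by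
  by_cases hd : DifferentiableAt ℝ (fun y => G y i) x
  · rw [← hd.lineDeriv_eq_fderiv, lineDeriv]
    have : (fun t : ℝ => G (x + t • Pi.single k 1) i) = fun _ => G x i := by
      funext t; rw [hG.add_single hk]
    rw [this, deriv_const]
  · rw [fderiv_zero_of_not_differentiableAt hd]; rfl

/-- `∂_k G_i = 0` if `k` is not passive (form along coordinate lines) -/
theorem Passive.deriv_update (hG : Passive P G) {k : ι} (hk : k ∉ P) (x : ι → ℝ)
    (i : ι) (r : ℝ) : deriv (fun s => G (Function.update x k s) i) r = 0 := by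
  have : (fun s : ℝ => G (Function.update x k s) i) = fun _ => G x i := by
    funext t; rw [hG.deriv_eq_zero hk]
  rw [this, deriv_const]

/-- the convective term of a passive field vanishes -/
theorem Passive.convective [Fintype ι] (hG : Passive P G) (x : ι → ℝ) (i : ι) :
    ∑ k, G x k * fderiv ℝ (fun y => G y i) x (Pi.single k 1) = 0 := by
  classical
  refine Finset.sum_eq_zero fun k _ => ?_
  by_cases hk : k ∈ P
  · rw [hG.zero x k hk, zero_mul]
  · rw [hG.fderiv_eq_zero hk, mul_zero]

/-- the divergence of a passive field vanishes -/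
theorem Passive.divergence [Fintype ι] (hG : Passive P G) (x : ι → ℝ) :
    ∑ k, fderiv ℝ (fun y => G y k) x (Pi.single k 1) = 0 := by
  classical
  refine Finset.sum_eq_zero fun k _ => ?_
  by_cases hk : k ∈ P
  · have : (fun y => G y k) = fun _ => (0 : ℝ) := by funext y; exact hG.zero y k hk
    rw [this]; simp
  · exact hG.fderiv_eq_zero hk x k

/-- the convective term of a passive field vanishes (form along coordinate lines) -/
theorem Passive.convective_line [Fintype ι] (hG : Passive P G) (x : ι → ℝ) (i : ι) :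
    ∑ k, G x k * deriv (fun s => G (Function.update x k s) i) (x k) = 0 := by
  classical
  refine Finset.sum_eq_zero fun k _ => ?_
  by_cases hk : k ∈ P
  · rw [hG.zero x k hk, zero_mul]
  · rw [hG.deriv_update hk, mul_zero]

/-- the divergence of a passive field vanishes (form along coordinate lines) -/
theorem Passive.divergence_line [Fintype ι] (hG : Passive P G) (x : ι → ℝ) :
    ∑ k, deriv (fun s => G (Function.update x k s) k) (x k) = 0 := by
  classical
  refine Finset.sum_eq_zero fun k _ => ?_
  by_cases hk : k ∈ P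
  · have : (fun s => G (Function.update x k s) k) = fun _ => (0 : ℝ) := by
      funext y; exact hG.zero _ k hk
    rw [this]; simp
  · exact hG.deriv_update hk x k _

end partialDeriv

/-! ### Windows -/

section windows

/-- the profile of the `j`-th window of length `1/N` -/
noncomputable def prof (ρ : ℝ → ℝ) (κ : ℝ) (N j : ℕ) (t : ℝ) : ℝ :=
  2 * N / κ * ρ (2 * N * t - (2 * j + 1))

theorem prof_sched {ρ : ℝ → ℝ} {κ : ℝ} {N : ℕ} (hN : 0 < N) (hρc : Continuous ρ)
    (hρ0 : ∀ s, 0 ≤ ρ s) (hρ : ∀ s, 1 ≤ |s| → ρ s = 0) (hκ : κ = ∫ s, ρ s) (hκ0 : 0 < κ) :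
    Sched N (prof ρ κ N) := by
  have hN' : (0 : ℝ) < N := by exact_mod_cast hN
  refine ⟨hN, fun j => ?_, fun j t => ?_, fun j t ht => ?_, fun j => ?_⟩
  · unfold prof; fun_prop
  · unfold prof; have := hρ0 (2 * N * t - (2 * j + 1)); positivity
  · unfold prof
    rw [hρ, mul_zero]
    rw [mem_Ioo, not_and_or, not_lt, not_lt, le_div_iff₀ hN', div_le_iff₀ hN'] at ht
    rw [le_abs]
    rcases ht with ht | ht
    · right; linarith
    · left; linarith
  · unfold prof
    rw [intervalIntegral.integral_const_mul]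
    have h2 : (2 * (N : ℝ)) ≠ 0 := by positivity
    rw [intervalIntegral.integral_comp_mul_sub ρ h2]
    have e1 : 2 * (N : ℝ) * ((j : ℝ) / N) - (2 * j + 1) = -1 := by field_simp; ring
    have e2 : 2 * (N : ℝ) * ((j + 1 : ℝ) / N) - (2 * j + 1) = 1 := by field_simp; ring
    rw [e1, e2]
    have e3 : ∫ x in (-1 : ℝ)..1, ρ x = κ := by
      rw [hκ, intervalIntegral.integral_of_le (by norm_num), setIntegral_eq_integral_of_forall_compl_eq_zero]
      intro x hx
      apply hρ
      rw [mem_Ioc, not_and_or, not_lt, not_le] at hx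
      rw [le_abs]
      rcases hx with hx | hx
      · right; linarith
      · left; linarith
    rw [e3, smul_eq_mul]
    field_simp

/-- In the `j`-th window the periodised `k`-th profile is the `j`-th profile if `j = k` modulo `N`
and zero otherwise. -/
theorem periodised_window {ρ : ℝ → ℝ} (hρ : ∀ s, 1 ≤ |s| → ρ s = 0) {N : ℕ} (hN : 0 < N) {k : ℕ}
    (hk : k < N) {j : ℕ} {t : ℝ} (ht : t ∈ win N j) :
    ∑' m : ℤ, ρ (2 * N * (t + m) - (2 * k + 1)) =
      if j % N = k then ρ (2 * N * t - (2 * j + 1)) else 0 := by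
  have hN' : (0 : ℝ) < N := by exact_mod_cast hN
  obtain ⟨h1, h2⟩ := ht
  rw [div_le_iff₀ hN'] at h1
  rw [le_div_iff₀ hN'] at h2
  have hz : ∀ m : ℤ, (j : ℤ) + N * m ≠ k → ρ (2 * N * (t + m) - (2 * k + 1)) = 0 := by
    intro m hm
    apply hρ
    rw [le_abs]
    rcases lt_or_gt_of_ne hm with h | h
    · right
      have : (j : ℝ) + N * m + 1 ≤ k := by exact_mod_cast h
      nlinarith
    · left
      have : (k : ℝ) + 1 ≤ j + N * m := by exact_mod_cast h
      nlinarith
  split_ifs with hjk
  · have hj : (j : ℤ) + N * (-(j / N : ℕ) : ℤ) = k := by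
      have := Nat.mod_add_div j N
      rw [hjk] at this
      have h3 : (j : ℤ) = k + N * (j / N : ℕ) := by exact_mod_cast this.symm
      linarith
    rw [tsum_eq_single (-(j / N : ℕ) : ℤ)]
    · congr 1
      have hj' : (j : ℝ) + N * ((-(j / N : ℕ) : ℤ) : ℝ) = k := by exact_mod_cast hj
      linarith
    · intro m hm
      apply hz
      intro hm'
      apply hm
      have : (N : ℤ) * m = N * (-(j / N : ℕ) : ℤ) := by linarith
      exact mul_left_cancel₀ (by exact_mod_cast hN.ne') this
  · have : ∀ m : ℤ, ρ (2 * N * (t + m) - (2 * k + 1)) = 0 := by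
      intro m
      apply hz
      intro hm
      apply hjk
      have h3 : (j : ℤ) % N = k % N := by
        rw [← hm, Int.add_mul_emod_self_left]
      have h4 : (k : ℤ) % N = k := Int.emod_eq_of_lt (by positivity) (by exact_mod_cast hk)
      rw [h4] at h3
      exact_mod_cast h3
    simp [this]

end windows

end Vale.Agent.P113.H195
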