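import Vale.Agent.P113.H195.Part2cR
import Vale.Agent.P113.H195.Shear
import Vale.Agent.P113.H99.BumpFun
import Vale.Agent.P113.H99.Per
import Vale.Agent.P113.H99.Rho

/-!
# P113 (helper195): part 2c (time profiles)
-/

open MeasureTheory Set
open scoped ContDiff

namespace Vale.Agent.P113.H195

open Vale.Agent.P113.H99

theorem int_rho_one : ∫ x in (-1 : ℝ)..1, rho x = kappa := by
  rw [kappa, intervalIntegral.integral_of_le (by norm_num),
    setIntegral_eq_integral_of_forall_compl_eq_zero]
  intro x hx
  apply rho_zero
  rw [mem_Ioc, not_and_or, not_lt, not_le] at hx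
  rw [le_abs]
  rcases hx with hx | hx
  · right; linarith
  · left; linarith

theorem rho_aff_contDiff (a b : ℝ) : ContDiff ℝ ∞ (fun s => rho (a * s - b)) := by
  have : ContDiff ℝ ∞ rho := rho_contDiff (n := ⊤)
  exact this.comp ((contDiff_const.mul contDiff_id).sub contDiff_const)

theorem part2cR : Part2cR := by
  have hk := kappa_pos
  refine ⟨?_, fun t => ?_, fun t ht => ?_, fun t ht => ?_, ?_, fun N j hj => ?_⟩
  · exact contDiff_const.mul (rho_aff_contDiff 4 1)
  · unfold theta0; have := rho_nonneg (4 * t - 1); positivity
  · unfold theta0; rw [rho_zero, mul_zero]; rw [le_abs]; right; linarith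
  · unfold theta0; rw [rho_zero, mul_zero]; rw [le_abs]; left; linarith
  · unfold theta0
    rw [intervalIntegral.integral_const_mul, intervalIntegral.integral_comp_mul_sub rho (by norm_num)]
    norm_num
    rw [int_rho_one]
    field_simp
  · have hN : 0 < N := by omega
    have hN' : (0 : ℝ) < N := by exact_mod_cast hN
    have hjN : (j : ℝ) + 1 ≤ N := by exact_mod_cast hj
    have hj0 : (0 : ℝ) ≤ j := by positivity
    have hN1 : (1 : ℝ) ≤ N := by linarith
    obtain ⟨R, hR⟩ : ∃ R, Supp (fun s => rho (4 * N * s - (2 * N + 2 * j + 1))) R := by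
      obtain ⟨R, hR⟩ := exists_supp_aff (g := rho) (C := 1) (fun s hs => rho_zero hs)
        (a := 4 * N) (by positivity) (2 * N + 2 * j + 1) 0
      exact ⟨R, by simpa using hR⟩
    have hsm : ContDiff ℝ ∞ (theta N j) := by
      exact contDiff_const.mul (per_contDiff hR (rho_aff_contDiff _ _))
    have hz1 : ∀ t : ℝ, 0 ≤ t → t ≤ 1 / 2 + (j : ℝ) / (2 * N) → theta N j t = 0 := by
      intro t h0 h1
      have h1' : 4 * N * t ≤ 2 * N + 2 * j := by
        have := mul_le_mul_of_nonneg_left h1 (show (0 : ℝ) ≤ 4 * N by positivity)
        refine this.trans (le_of_eq ?_)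
        field_simp; ring
      have : ∀ m : ℤ, rho (4 * N * (t + m) - (2 * N + 2 * j + 1)) = 0 := by
        intro m
        apply rho_zero
        rw [le_abs]
        rcases le_or_gt m 0 with hm | hm
        · right
          have hm' : (m : ℝ) ≤ 0 := by exact_mod_cast hm
          nlinarith
        · left
          have hm' : (1 : ℝ) ≤ m := by exact_mod_cast hm
          nlinarith
      unfold theta periodize
      simp only [this, tsum_zero, mul_zero]
    have hz2 : ∀ t : ℝ, 1 / 2 + ((j : ℝ) + 1) / (2 * N) ≤ t → t ≤ 1 → theta N j t = 0 := by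
      intro t h0 h1
      have h1' : 2 * N + 2 * j + 2 ≤ 4 * N * t := by
        have := mul_le_mul_of_nonneg_left h0 (show (0 : ℝ) ≤ 4 * N by positivity)
        refine le_trans (le_of_eq ?_) this
        field_simp; ring
      have : ∀ m : ℤ, rho (4 * N * (t + m) - (2 * N + 2 * j + 1)) = 0 := by
        intro m
        apply rho_zero
        rw [le_abs]
        rcases le_or_gt 0 m with hm | hm
        · left
          have hm' : (0 : ℝ) ≤ m := by exact_mod_cast hm
          nlinarith
        · right
          have hm' : (m : ℝ) ≤ -1 := by exact_mod_cast (show m ≤ -1 by omega)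
          nlinarith
      unfold theta periodize
      simp only [this, tsum_zero, mul_zero]
    refine ⟨hsm, fun t => ?_, fun t => ?_, hz1, hz2, ?_⟩
    · unfold theta periodize
      have : 0 ≤ ∑' m : ℤ, rho (4 * N * (t + m) - (2 * N + 2 * j + 1)) :=
        tsum_nonneg fun m => rho_nonneg _
      positivity
    · unfold theta; rw [per_add_one]
    · have hle : (1 / 2 + j / (2 * N) : ℝ) ≤ 1 / 2 + (j + 1) / (2 * N) := by
        gcongr; linarith
      have hcongr : ∫ t in (1 / 2 + j / (2 * N) : ℝ)..(1 / 2 + (j + 1) / (2 * N)), theta N j t =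
          ∫ t in (1 / 2 + j / (2 * N) : ℝ)..(1 / 2 + (j + 1) / (2 * N)),
            4 * N * kappa⁻¹ * rho (4 * N * t - (2 * N + 2 * j + 1)) := by
        apply intervalIntegral.integral_congr
        intro t ht
        rw [uIcc_of_le hle] at ht
        have h1 : 2 * N + 2 * j ≤ 4 * N * t := by
          have := mul_le_mul_of_nonneg_left ht.1 (show (0 : ℝ) ≤ 4 * N by positivity)
          refine le_trans (le_of_eq ?_) this
          field_simp; ring
        have h2 : 4 * N * t ≤ 2 * N + 2 * j + 2 := by
          have := mul_le_mul_of_nonneg_left ht.2 (show (0 : ℝ) ≤ 4 * N by positivity)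
          refine this.trans (le_of_eq ?_)
          field_simp; ring
        show theta N j t = 4 * N * kappa⁻¹ * rho (4 * N * t - (2 * N + 2 * j + 1))
        unfold theta periodize
        rw [tsum_eq_single (0 : ℤ)]
        · simp
        · intro m hm
          apply rho_zero
          rw [le_abs]
          rcases lt_or_gt_of_ne hm with hm | hm
          · right
            have hm' : (m : ℝ) ≤ -1 := by exact_mod_cast (show m ≤ -1 by omega)
            nlinarith
          · left
            have hm' : (1 : ℝ) ≤ m := by exact_mod_cast hm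
            nlinarith
      rw [hcongr, intervalIntegral.integral_const_mul,
        intervalIntegral.integral_comp_mul_sub rho (by positivity : (4 * N : ℝ) ≠ 0)]
      have e1 : 4 * (N : ℝ) * (1 / 2 + j / (2 * N)) - (2 * N + 2 * j + 1) = -1 := by
        field_simp; ring
      have e2 : 4 * (N : ℝ) * (1 / 2 + (j + 1) / (2 * N)) - (2 * N + 2 * j + 1) = 1 := by
        field_simp; ring
      rw [e1, e2, int_rho_one, smul_eq_mul]
      field_simp



end Vale.Agent.P113.H195
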