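import Vale.Agent.P113.H195.Part3b
import Vale.Agent.P113.H195.Part2c

namespace Vale.Agent.P113.H195

/-- Part 3b without hypotheses. -/
theorem part3b : Part3b := part3b_of part2cR

end Vale.Agent.P113.H195
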