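import Mathlib
import Vale.Agent.P113.H195.Shear

/-!
# P113 (helper195): trajectories for general time windows `[s j, s (j+1)]`
-/

namespace Vale.Agent.P113.H195

open Set MeasureTheory

/-- A schedule: profiles `θ j`, supported in the `j`-th window `[s j, s (j+1)]`, with integral
one. -/
structure GSched (s : ℕ → ℝ) (θ : ℕ → ℝ → ℝ) : Prop where
  zero : s 0 = 0
  mono : Monotone s
  unb : ∀ t, ∃ j, t < s j
  cont : ∀ j, Continuous (θ j)
  nonneg : ∀ j t, 0 ≤ θ j t
  supp_le : ∀ j t, t ≤ s j → θ j t = 0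
  supp_ge : ∀ j t, s (j + 1) ≤ t → θ j t = 0
  int : ∀ j : ℕ, ∫ t in (s j)..(s (j + 1)), θ j t = 1

variable {s : ℕ → ℝ} {θ : ℕ → ℝ → ℝ}

theorem GSched.exists_win (h : GSched s θ) {t : ℝ} (ht : 0 ≤ t) :
    ∃ j, t ∈ Icc (s j) (s (j + 1)) ∧ t < s (j + 1) := by
  classical
  have hex := h.unb t
  have h0 : Nat.find hex ≠ 0 := by
    intro h0
    have := Nat.find_spec hex
    rw [h0, h.zero] at this
    exact absurd this (not_lt.2 ht)
  obtain ⟨j, hj⟩ := Nat.exists_eq_succ_of_ne_zero h0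
  have h1 : t < s (j + 1) := by have := Nat.find_spec hex; rwa [hj] at this
  have h2 : ¬ t < s j := Nat.find_min hex (by omega)
  exact ⟨j, ⟨not_lt.1 h2, h1.le⟩, h1⟩

/-- the fraction of the `j`-th shear made at time `t` -/
noncomputable def gfrac (s : ℕ → ℝ) (θ : ℕ → ℝ → ℝ) (j : ℕ) (t : ℝ) : ℝ :=
  ∫ r in (s j)..t, θ j r

theorem GSched.frac_le (h : GSched s θ) (j : ℕ) {t : ℝ} (ht : t ≤ s j) :
    gfrac s θ j t = 0 := by
  rw [gfrac, intervalIntegral.integral_symm, neg_eq_zero]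
  apply intervalIntegral.integral_zero_ae
  filter_upwards with r hr
  rw [uIoc_of_le ht] at hr
  exact h.supp_le j r hr.2

theorem GSched.frac_ge (h : GSched s θ) (j : ℕ) {t : ℝ} (ht : s (j + 1) ≤ t) :
    gfrac s θ j t = 1 := by
  have h1 : gfrac s θ j t = (∫ r in (s j)..(s (j + 1)), θ j r)
      + ∫ r in (s (j + 1))..t, θ j r :=
    (intervalIntegral.integral_add_adjacent_intervals ((h.cont j).intervalIntegrable _ _)
      ((h.cont j).intervalIntegrable _ _)).symm
  rw [h1, h.int, add_eq_left]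
  apply intervalIntegral.integral_zero_ae
  filter_upwards with r hr
  rw [uIoc_of_le ht] at hr
  exact h.supp_ge j r hr.1.le

theorem GSched.frac_deriv (h : GSched s θ) (j : ℕ) (t : ℝ) :
    HasDerivAt (gfrac s θ j) (θ j t) t :=
  intervalIntegral.integral_hasDerivAt_right ((h.cont j).intervalIntegrable _ _)
    ((h.cont j).stronglyMeasurableAtFilter _ _) (h.cont j).continuousAt

theorem GSched.frac_mem (h : GSched s θ) (j : ℕ) (t : ℝ) : gfrac s θ j t ∈ Icc (0 : ℝ) 1 := by
  have hmono : Monotone (gfrac s θ j) := by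
    refine monotone_of_deriv_nonneg (fun t => (h.frac_deriv j t).differentiableAt) fun t => ?_
    rw [(h.frac_deriv j t).deriv]; exact h.nonneg j t
  constructor
  · have := hmono (min_le_left t (s j))
    rwa [h.frac_le j (min_le_right _ _)] at this
  · have := hmono (le_max_left t (s (j + 1)))
    rwa [h.frac_ge j (le_max_right _ _)] at this

variable {ι : Type*} {P : ℕ → Set ι} {G : ℕ → (ι → ℝ) → ι → ℝ}
  {u : ℝ → (ι → ℝ) → ι → ℝ}

theorem GSched.s_nonneg (h : GSched s θ) (j : ℕ) : 0 ≤ s j := by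
  rw [← h.zero]; exact h.mono (Nat.zero_le _)

/-- Uniqueness: every trajectory is the explicit one. -/
theorem GSched.traj_unique (h : GSched s θ) (hG : ∀ j, Passive (P j) (G j))
    (hu : ∀ j, ∀ t ∈ Icc (s j) (s (j + 1)), ∀ x, u t x = θ j t • G j x) {X : ℝ → ι → ℝ}
    (hX : ∀ t, 0 ≤ t → ∀ i, HasDerivWithinAt (fun s => X s i) (u t (X t) i) (Ici 0) t) :
    (∀ j : ℕ, X (s j) = orbit G (X 0) j) ∧
    ∀ j : ℕ, ∀ t ∈ Icc (s j) (s (j + 1)),
      X t = orbit G (X 0) j + gfrac s θ j t • G j (orbit G (X 0) j) := by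
  have step : ∀ j : ℕ, ∀ t ∈ Icc (s j) (s (j + 1)),
      X t = X (s j) + gfrac s θ j t • G j (X (s j)) := by
    intro j
    have hj0 : 0 ≤ s j := h.s_nonneg j
    refine window_unique (hG j) (h.cont j) (fun i t ht => ?_) (fun t ht i => ?_)
    · exact ((hX t (hj0.trans ht.1) i).continuousWithinAt).mono
        (fun s hs => hj0.trans hs.1)
    · have h0 : 0 ≤ t := hj0.trans ht.1
      have h1 := (hX t h0 i).mono (fun s (hs : s ∈ Ici t) => h0.trans hs)
      rwa [hu j t ⟨ht.1, ht.2.le⟩, Pi.smul_apply, smul_eq_mul] at h1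
  have horb : ∀ j : ℕ, X (s j) = orbit G (X 0) j := by
    intro j
    induction j with
    | zero => simp [orbit, h.zero]
    | succ j ih =>
      have h1 := step j (s (j + 1)) ⟨h.mono (Nat.le_succ j), le_rfl⟩
      rw [h1, ih, h.frac_ge j le_rfl, one_smul]
      rfl
  exact ⟨horb, fun j t ht => by rw [step j t ht, horb j]⟩

open Classical in
/-- The explicit trajectory. -/
noncomputable def gtraj (s : ℕ → ℝ) (θ : ℕ → ℝ → ℝ) (G : ℕ → (ι → ℝ) → ι → ℝ) (a : ι → ℝ)
    (t : ℝ) : ι → ℝ :=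
  a + ∑ᶠ j, gfrac s θ j t • G j (orbit G a j)

theorem GSched.traj_eq (h : GSched s θ) (a : ι → ℝ) {t : ℝ} {M : ℕ} (hM : t ≤ s M) :
    gtraj s θ G a t = a + ∑ j ∈ Finset.range M, gfrac s θ j t • G j (orbit G a j) := by
  rw [gtraj]
  congr 1
  apply finsum_eq_sum_of_support_subset
  intro j hj
  by_contra hj'
  have hj' : M ≤ j := not_lt.1 (by simpa using hj')
  apply hj
  show gfrac s θ j t • G j (orbit G a j) = 0
  rw [h.frac_le j (hM.trans (h.mono hj')), zero_smul]

theorem GSched.traj_win (h : GSched s θ) (a : ι → ℝ) {j : ℕ} {t : ℝ}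
    (ht : t ∈ Icc (s j) (s (j + 1))) :
    gtraj s θ G a t = orbit G a j + gfrac s θ j t • G j (orbit G a j) := by
  rw [h.traj_eq a ht.2, Finset.sum_range_succ, orbit_eq_sum G a j, ← add_assoc]
  congr 2
  refine Finset.sum_congr rfl fun k hk => ?_
  have hk' : k + 1 ≤ j := Finset.mem_range.1 hk
  rw [h.frac_ge k ((h.mono hk').trans ht.1), one_smul]

theorem GSched.traj_zero (h : GSched s θ) (a : ι → ℝ) : gtraj s θ G a 0 = a := by
  have h0 : (0 : ℝ) ∈ Icc (s 0) (s (0 + 1)) := ⟨h.zero.le, h.s_nonneg _⟩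
  rw [h.traj_win a h0, h.frac_le 0 h.zero.ge]
  simp [orbit]

/-- Existence: the explicit curve is a trajectory. -/
theorem GSched.traj_deriv (h : GSched s θ) (hG : ∀ j, Passive (P j) (G j))
    (hu : ∀ j, ∀ t ∈ Icc (s j) (s (j + 1)), ∀ x, u t x = θ j t • G j x) (a : ι → ℝ) {t : ℝ}
    (ht : 0 ≤ t) (i : ι) :
    HasDerivAt (fun r => gtraj s θ G a r i) (u t (gtraj s θ G a t) i) t := by
  obtain ⟨j, hj, hlt⟩ := h.exists_win ht
  have hev : (fun r => gtraj s θ G a r i) =ᶠ[nhds t] fun r => a i + ∑ k ∈ Finset.range (j + 1),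
      gfrac s θ k r * G k (orbit G a k) i := by
    have : ∀ᶠ r in nhds t, r < s (j + 1) := eventually_lt_nhds hlt
    filter_upwards [this] with r hr
    rw [h.traj_eq a hr.le]
    simp
  refine HasDerivAt.congr_of_eventuallyEq ?_ hev
  have hsum : HasDerivAt (fun r => a i + ∑ k ∈ Finset.range (j + 1),
      gfrac s θ k r * G k (orbit G a k) i)
      (∑ k ∈ Finset.range (j + 1), θ k t * G k (orbit G a k) i) t := by
    refine HasDerivAt.const_add _ ?_
    refine HasDerivAt.fun_sum fun k _ => ?_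
    exact (h.frac_deriv k t).mul_const _
  have hval : u t (gtraj s θ G a t) i
      = ∑ k ∈ Finset.range (j + 1), θ k t * G k (orbit G a k) i := by
    rw [hu j t hj, h.traj_win a hj, (hG j).add_smul, Finset.sum_range_succ,
      Finset.sum_eq_zero, zero_add]
    · rfl
    · intro k hk
      have hk' : k + 1 ≤ j := Finset.mem_range.1 hk
      rw [h.supp_ge k t ((h.mono hk').trans hj.1), zero_mul]
  rw [hval]
  exact hsum

end Vale.Agent.P113.H195
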