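import Vale.Agent.P113.Iface

/-!
# P113 (helper195): the corrected form of `Part2c` (times are real numbers)
-/

open MeasureTheory Set
open scoped ContDiff

namespace Vale.Agent.P113.H195

/-- Target of part 2c: time profiles (smoothness, supports, integrals); `t` is real. -/
def Part2cR : Prop :=
  ContDiff ℝ ∞ theta0 ∧ (∀ t, 0 ≤ theta0 t) ∧ (∀ t, t ≤ 0 → theta0 t = 0) ∧
    (∀ t, 1 / 2 ≤ t → theta0 t = 0) ∧ (∫ t in (0 : ℝ)..(1 / 2), theta0 t = 1) ∧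
  ∀ N j : ℕ, j < N → ContDiff ℝ ∞ (theta N j) ∧ (∀ t, 0 ≤ theta N j t) ∧
    (∀ t, theta N j (t + 1) = theta N j t) ∧
    (∀ t : ℝ, 0 ≤ t → t ≤ 1 / 2 + (j : ℝ) / (2 * N) → theta N j t = 0) ∧
    (∀ t : ℝ, 1 / 2 + ((j : ℝ) + 1) / (2 * N) ≤ t → t ≤ 1 → theta N j t = 0) ∧
    (∫ t in (1 / 2 + j / (2 * N) : ℝ)..(1 / 2 + (j + 1) / (2 * N)), theta N j t = 1)

end Vale.Agent.P113.H195
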