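import Mathlib
import Vale.Agent.P113.Iface
import Vale.Agent.P113.H195.GSched
import Vale.Agent.P113.H195.Part2cR

/-!
# P113 (helper195): part 3b, the trajectory of `vel S v`
-/

namespace Vale.Agent.P113.H195

open Set MeasureTheory

/-- start of the `k`-th shear -/
noncomputable def ta (N k : ℕ) : ℝ := ((k / N : ℕ) : ℝ) + (1 / 2 + ((k % N : ℕ) : ℝ) / (2 * N))

/-- end of the `k`-th shear -/
noncomputable def tb (N k : ℕ) : ℝ := ((k / N : ℕ) : ℝ) + (1 / 2 + (((k % N : ℕ) : ℝ) + 1) / (2 * N))

/-- starts of the windows -/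
noncomputable def ts (N : ℕ) : ℕ → ℝ
  | 0 => 0
  | k + 1 => ta N k

theorem succ_cases {N : ℕ} (hN : 0 < N) (k : ℕ) :
    (k % N + 1 < N ∧ (k + 1) / N = k / N ∧ (k + 1) % N = k % N + 1) ∨
    (k % N + 1 = N ∧ (k + 1) / N = k / N + 1 ∧ (k + 1) % N = 0) := by
  have h1 := Nat.div_add_mod k N
  have h2 := Nat.mod_lt k hN
  rcases Nat.lt_or_ge (k % N + 1) N with h | h
  · left
    refine ⟨h, ?_, ?_⟩
    · have e : k + 1 = (k % N + 1) + N * (k / N) := by omega
      rw [e, Nat.add_mul_div_left _ _ hN, Nat.div_eq_of_lt h, zero_add]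
    · have e : k + 1 = (k % N + 1) + N * (k / N) := by omega
      conv_lhs => rw [e]
      rw [Nat.add_mul_mod_self_left, Nat.mod_eq_of_lt h]
  · right
    have h' : k % N + 1 = N := by omega
    have e : k + 1 = N * (k / N + 1) := by rw [Nat.mul_add, Nat.mul_one]; omega
    refine ⟨h', ?_, ?_⟩
    · rw [e, Nat.mul_div_cancel_left _ hN]
    · rw [e, Nat.mul_mod_right]

theorem ta_le_tb {N : ℕ} (k : ℕ) : ta N k ≤ tb N k := by
  unfold ta tb
  gcongr
  linarith

theorem tb_le_ta_succ {N : ℕ} (hN : 0 < N) (k : ℕ) : tb N k ≤ ta N (k + 1) := by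
  have hN' : (0 : ℝ) < N := by exact_mod_cast hN
  unfold ta tb
  rcases succ_cases hN k with ⟨_, h2, h3⟩ | ⟨h1, h2, h3⟩
  · rw [h2, h3]; push_cast; exact le_rfl
  · rw [h2, h3]
    have : ((k % N : ℕ) : ℝ) + 1 = N := by exact_mod_cast h1
    rw [this]
    push_cast
    have : (N : ℝ) / (2 * N) = 1 / 2 := by field_simp
    rw [this]
    simp only [zero_div, add_zero]
    linarith

theorem ta_succ_le {N : ℕ} (hN : 0 < N) (k : ℕ) :
    ta N (k + 1) = tb N k ∨ (tb N k = (k / N : ℕ) + 1 ∧ ta N (k + 1) = (k / N : ℕ) + 1 + 1 / 2) := by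
  have hN' : (0 : ℝ) < N := by exact_mod_cast hN
  unfold ta tb
  rcases succ_cases hN k with ⟨_, h2, h3⟩ | ⟨h1, h2, h3⟩
  · left; rw [h2, h3]; push_cast; rfl
  · right
    rw [h2, h3]
    have : ((k % N : ℕ) : ℝ) + 1 = N := by exact_mod_cast h1
    rw [this]
    push_cast
    have : (N : ℝ) / (2 * N) = 1 / 2 := by field_simp
    rw [this]
    simp only [zero_div, add_zero]
    constructor
    · norm_num
    · trivial

theorem ts_mono {N : ℕ} (hN : 0 < N) : Monotone (ts N) := by
  refine monotone_nat_of_le_succ fun k => ?_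
  cases k with
  | zero => simp only [ts, ta]; positivity
  | succ k => exact (ta_le_tb k).trans (tb_le_ta_succ hN k)

/-- the time profiles -/
noncomputable def tth (N : ℕ) : ℕ → ℝ → ℝ
  | 0 => theta0
  | k + 1 => fun t => theta N (k % N) (max (ta N k) (min (tb N k) t))

theorem theta_per (h2c : Part2cR) {N j : ℕ} (hj : j < N) (q : ℕ) (t : ℝ) :
    theta N j (q + t) = theta N j t := by
  have h : Function.Periodic (theta N j) 1 := (h2c.2.2.2.2.2 N j hj).2.2.1
  have := h.nat_mul q t
  rwa [mul_one, add_comm] at this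

theorem theta_ta (h2c : Part2cR) {N : ℕ} (hN : 0 < N) (k : ℕ) : theta N (k % N) (ta N k) = 0 := by
  have hj := Nat.mod_lt k hN
  rw [ta, theta_per h2c hj]
  refine (h2c.2.2.2.2.2 N _ hj).2.2.2.1 _ (by positivity) le_rfl

theorem theta_tb (h2c : Part2cR) {N : ℕ} (hN : 0 < N) (k : ℕ) : theta N (k % N) (tb N k) = 0 := by
  have hN' : (0 : ℝ) < N := by exact_mod_cast hN
  have hj := Nat.mod_lt k hN
  rw [tb, theta_per h2c hj]
  refine (h2c.2.2.2.2.2 N _ hj).2.2.2.2.1 _ le_rfl ?_
  have : ((k % N : ℕ) : ℝ) + 1 ≤ N := by exact_mod_cast hj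
  have h2 : (((k % N : ℕ) : ℝ) + 1) / (2 * N) ≤ 1 / 2 := by
    rw [div_le_div_iff₀ (by positivity) (by norm_num)]; linarith
  linarith

theorem gsched (h2c : Part2cR) {N : ℕ} (hN : 0 < N) : GSched (ts N) (tth N) := by
  have hN' : (0 : ℝ) < N := by exact_mod_cast hN
  have h01 : ts N (0 + 1) = 1 / 2 := by
    simp [ts, ta, Nat.zero_div, Nat.zero_mod]
  refine ⟨rfl, ts_mono hN, fun t => ?_, fun j => ?_, fun j t => ?_, fun j t ht => ?_,
    fun j t ht => ?_, fun j => ?_⟩
  · refine ⟨N * (⌈t⌉₊ + 1) + 1, ?_⟩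
    show t < ta N (N * (⌈t⌉₊ + 1))
    rw [ta, Nat.mul_div_cancel_left _ hN, Nat.mul_mod_right]
    have := Nat.le_ceil t
    push_cast
    simp only [zero_div, add_zero]
    linarith
  · cases j with
    | zero => exact h2c.1.continuous
    | succ k =>
      have := (h2c.2.2.2.2.2 N _ (Nat.mod_lt k hN)).1.continuous
      exact this.comp (continuous_const.max (continuous_const.min continuous_id))
  · cases j with
    | zero => exact h2c.2.1 t
    | succ k => exact (h2c.2.2.2.2.2 N _ (Nat.mod_lt k hN)).2.1 _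
  · cases j with
    | zero => exact h2c.2.2.1 t ht
    | succ k =>
      have ht' : t ≤ ta N k := ht
      show theta N (k % N) (max (ta N k) (min (tb N k) t)) = 0
      rw [min_eq_right (ht'.trans (ta_le_tb k)), max_eq_left ht', theta_ta h2c hN]
  · cases j with
    | zero => rw [h01] at ht; exact h2c.2.2.2.1 t ht
    | succ k =>
      have ht' : tb N k ≤ t := (tb_le_ta_succ hN k).trans ht
      show theta N (k % N) (max (ta N k) (min (tb N k) t)) = 0
      rw [min_eq_left ht', max_eq_right (ta_le_tb k), theta_tb h2c hN]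
  · cases j with
    | zero => rw [h01]; exact h2c.2.2.2.2.1
    | succ k =>
      have hj := Nat.mod_lt k hN
      have hc : Continuous (fun t => theta N (k % N) (max (ta N k) (min (tb N k) t))) :=
        (h2c.2.2.2.2.2 N _ hj).1.continuous.comp
          (continuous_const.max (continuous_const.min continuous_id))
      show ∫ t in (ta N k)..(ta N (k + 1)), theta N (k % N) (max (ta N k) (min (tb N k) t)) = 1
      rw [← intervalIntegral.integral_add_adjacent_intervals (b := tb N k)
        (hc.intervalIntegrable _ _) (hc.intervalIntegrable _ _)]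
      have e2 : ∫ t in (tb N k)..(ta N (k + 1)),
          theta N (k % N) (max (ta N k) (min (tb N k) t)) = 0 := by
        apply intervalIntegral.integral_zero_ae
        filter_upwards with t ht
        rw [uIoc_of_le (tb_le_ta_succ hN k)] at ht
        rw [min_eq_left ht.1.le, max_eq_right (ta_le_tb k), theta_tb h2c hN]
      have e1 : ∫ t in (ta N k)..(tb N k),
          theta N (k % N) (max (ta N k) (min (tb N k) t)) = 1 := by
        have e3 : ∫ t in (ta N k)..(tb N k),
            theta N (k % N) (max (ta N k) (min (tb N k) t)) =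
            ∫ t in (ta N k)..(tb N k), theta N (k % N) t := by
          apply intervalIntegral.integral_congr
          intro t ht
          rw [uIcc_of_le (ta_le_tb k)] at ht
          show theta N (k % N) (max (ta N k) (min (tb N k) t)) = _
          rw [min_eq_right ht.2, max_eq_right ht.1]
        rw [e3]
        have e4 := intervalIntegral.integral_comp_add_left (a := 1 / 2 + ((k % N : ℕ) : ℝ) / (2 * N))
          (b := 1 / 2 + (((k % N : ℕ) : ℝ) + 1) / (2 * N)) (theta N (k % N)) ((k / N : ℕ) : ℝ)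
        rw [ta, tb, ← e4]
        have e5 : (fun x : ℝ => theta N (k % N) (((k / N : ℕ) : ℝ) + x)) = theta N (k % N) := by
          funext x; exact theta_per h2c hj _ _
        rw [e5]
        exact (h2c.2.2.2.2.2 N _ hj).2.2.2.2.2
      rw [e1, e2, add_zero]

/-- the fields of the windows -/
noncomputable def tG (S : List Shear) (hS : S ≠ []) (v : Fin 3 → ℝ) :
    ℕ → (Fin 3 → ℝ) → Fin 3 → ℝ
  | 0 => fun _ => v
  | k + 1 => fun x => Pi.single (S[k % S.length]'(Nat.mod_lt _ (List.length_pos_iff.2 hS))).l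
      ((S[k % S.length]'(Nat.mod_lt _ (List.length_pos_iff.2 hS))).g x)

/-- the passive coordinates -/
def tP (S : List Shear) (hS : S ≠ []) : ℕ → Set (Fin 3)
  | 0 => ∅
  | k + 1 => {i | i ≠ (S[k % S.length]'(Nat.mod_lt _ (List.length_pos_iff.2 hS))).l}

theorem shear_g_dep {s : Shear} (hs : s.Ok) (x y : Fin 3 → ℝ) (h : ∀ i, i ≠ s.l → x i = y i) :
    s.g x = s.g y := by
  unfold Shear.g
  congr 1
  refine List.map_congr_left fun A hA => ?_
  unfold Atom.eval
  congr 1
  refine Finset.prod_congr rfl fun i _ => ?_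
  by_cases hi : i = s.l
  · rw [hi, (hs A hA).1]; rfl
  · rw [h i hi]

theorem tG_passive (S : List Shear) (hS : S ≠ []) (hok : ∀ s ∈ S, s.Ok) (v : Fin 3 → ℝ) (j : ℕ) :
    Passive (tP S hS j) (tG S hS v j) := by
  cases j with
  | zero => exact passive_const v
  | succ k => exact passive_single _ _ (shear_g_dep (hok _ (List.getElem_mem _)))

theorem orbit_tG (S : List Shear) (hS : S ≠ []) (v : Fin 3 → ℝ) (k : ℕ) :
    H195.orbit (tG S hS v) 0 (k + 1) = Vale.Agent.P113.orbit S hS v k := by
  induction k with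
  | zero => simp [H195.orbit, tG, Vale.Agent.P113.orbit]
  | succ k ih =>
    have : H195.orbit (tG S hS v) 0 (k + 1 + 1) = H195.orbit (tG S hS v) 0 (k + 1)
        + tG S hS v (k + 1) (H195.orbit (tG S hS v) 0 (k + 1)) := rfl
    rw [this, ih]
    simp only [tG, Vale.Agent.P113.orbit, Shear.map]
    funext i
    set l := (S[k % S.length]'(Nat.mod_lt _ (List.length_pos_iff.2 hS))).l with hl
    by_cases hi : i = l
    · subst hi; simp
    · rw [Function.update_of_ne hi, Pi.add_apply, Pi.single_eq_of_ne hi, add_zero]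

/-- in a window only one shear is active -/
theorem vel_window (h2c : Part2cR) (S : List Shear) (hS : S ≠ []) (v : Fin 3 → ℝ) (j : ℕ) (t : ℝ)
    (ht : t ∈ Icc (ts S.length j) (ts S.length (j + 1))) (x : Fin 3 → ℝ) :
    vel S v t x = tth S.length j t • tG S hS v j x := by
  have hN : 0 < S.length := List.length_pos_iff.2 hS
  have hN' : (0 : ℝ) < S.length := by exact_mod_cast hN
  set N := S.length with hNdef
  -- values of the profiles in the windows
  have key0 : ∀ j : Fin N, ∀ q : ℕ, ∀ t : ℝ, (q : ℝ) ≤ t → t ≤ q + 1 / 2 → theta N j t = 0 := by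
    intro j q t h1 h2
    have e : t = q + (t - q) := by ring
    rw [e, theta_per h2c j.2]
    refine (h2c.2.2.2.2.2 N j j.2).2.2.2.1 _ (by linarith) ?_
    have : (0 : ℝ) ≤ (j : ℕ) / (2 * N) := by positivity
    linarith
  cases j with
  | zero =>
    have h01 : ts N (0 + 1) = 1 / 2 := by
      simp [ts, ta, Nat.zero_div, Nat.zero_mod]
    rw [h01] at ht
    funext i
    show theta0 t * v i + _ = theta0 t * v i
    rw [add_eq_left]
    refine Finset.sum_eq_zero fun j _ => ?_
    have ht0 : (0 : ℝ) ≤ t := ht.1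
    rw [key0 j 0 t (by simpa using ht0) (by simpa using ht.2), zero_mul, ite_self]
  | succ k =>
    have ht1 : ta N k ≤ t := ht.1
    have ht2 : t ≤ ta N (k + 1) := ht.2
    have hhalf : 1 / 2 ≤ t := by
      refine le_trans ?_ ht1
      unfold ta
      have : (0 : ℝ) ≤ ((k / N : ℕ) : ℝ) := by positivity
      have : (0 : ℝ) ≤ ((k % N : ℕ) : ℝ) / (2 * N) := by positivity
      linarith
    have h0 : theta0 t = 0 := h2c.2.2.2.1 t hhalf
    have hr := Nat.mod_lt k hN
    -- the other profiles vanish
    have hother : ∀ j : Fin N, (j : ℕ) ≠ k % N → theta N j t = 0 := by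
      intro j hj
      rcases le_total t (tb N k) with hle | hge
      · have e : t = ((k / N : ℕ) : ℝ) + (t - ((k / N : ℕ) : ℝ)) := by ring
        rw [e, theta_per h2c j.2]
        unfold ta at ht1
        unfold tb at hle
        have hb : (((k % N : ℕ) : ℝ) + 1) / (2 * N) ≤ 1 / 2 := by
          rw [div_le_div_iff₀ (by positivity) (by norm_num)]
          have : ((k % N : ℕ) : ℝ) + 1 ≤ N := by exact_mod_cast hr
          linarith
        have ha : (0 : ℝ) ≤ ((k % N : ℕ) : ℝ) / (2 * N) := by positivity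
        rcases lt_or_gt_of_ne hj with hlt | hgt
        · refine (h2c.2.2.2.2.2 N j j.2).2.2.2.2.1 _ ?_ (by linarith)
          have : (((j : ℕ) : ℝ) + 1) / (2 * N) ≤ ((k % N : ℕ) : ℝ) / (2 * N) := by
            gcongr
            exact_mod_cast hlt
          linarith
        · refine (h2c.2.2.2.2.2 N j j.2).2.2.2.1 _ (by linarith) ?_
          have : (((k % N : ℕ) : ℝ) + 1) / (2 * N) ≤ ((j : ℕ) : ℝ) / (2 * N) := by
            gcongr
            exact_mod_cast hgt
          linarith
      · rcases ta_succ_le hN k with h | ⟨h1, h2⟩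
        · have e : t = tb N k := le_antisymm (ht2.trans h.le) hge
          rw [e, tb, theta_per h2c j.2]
          have hb : (((k % N : ℕ) : ℝ) + 1) / (2 * N) ≤ 1 / 2 := by
            rw [div_le_div_iff₀ (by positivity) (by norm_num)]
            have : ((k % N : ℕ) : ℝ) + 1 ≤ N := by exact_mod_cast hr
            linarith
          have ha : (0 : ℝ) ≤ (((k % N : ℕ) : ℝ) + 1) / (2 * N) := by positivity
          rcases lt_or_gt_of_ne hj with hlt | hgt
          · refine (h2c.2.2.2.2.2 N j j.2).2.2.2.2.1 _ ?_ (by linarith)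
            have : (((j : ℕ) : ℝ) + 1) / (2 * N) ≤ (((k % N : ℕ) : ℝ) + 1) / (2 * N) := by
              gcongr
            linarith
          · refine (h2c.2.2.2.2.2 N j j.2).2.2.2.1 _ (by linarith) ?_
            have : (((k % N : ℕ) : ℝ) + 1) / (2 * N) ≤ ((j : ℕ) : ℝ) / (2 * N) := by
              gcongr
              exact_mod_cast hgt
            linarith
        · refine key0 j (k / N + 1) t ?_ ?_
          · push_cast; linarith
          · push_cast; linarith
    have hsame : theta N (k % N) t = tth N (k + 1) t := by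
      show _ = theta N (k % N) (max (ta N k) (min (tb N k) t))
      rcases le_total t (tb N k) with hle | hge
      · rw [min_eq_right hle, max_eq_right ht1]
      · rw [min_eq_left hge, max_eq_right (ta_le_tb k), theta_tb h2c hN]
        rcases ta_succ_le hN k with h | ⟨h1, h2⟩
        · have e : t = tb N k := le_antisymm (ht2.trans h.le) hge
          rw [e, theta_tb h2c hN]
        · refine key0 ⟨k % N, hr⟩ (k / N + 1) t ?_ ?_
          · push_cast; linarith
          · push_cast; linarith
    funext i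
    show theta0 t * v i + (∑ j : Fin N, if (S.get j).l = i then theta N j t * (S.get j).g x else 0)
      = tth N (k + 1) t * tG S hS v (k + 1) x i
    rw [h0, zero_mul, zero_add, Finset.sum_eq_single (⟨k % N, hr⟩ : Fin N)]
    · rw [← hsame]
      simp only [tG, List.get_eq_getElem]
      split_ifs with hl
      · subst hl; simp [hNdef]
      · have : (Pi.single (S[k % S.length]'(Nat.mod_lt _ (List.length_pos_iff.2 hS))).l
            ((S[k % S.length]'(Nat.mod_lt _ (List.length_pos_iff.2 hS))).g x) : Fin 3 → ℝ) i = 0 :=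
          Pi.single_eq_of_ne (fun h => hl h.symm) _
        simp only [← hNdef] at this
        rw [this, mul_zero]
    · intro j _ hj
      rw [hother j (fun h => hj (Fin.ext h)), zero_mul, ite_self]
    · intro h; exact absurd (Finset.mem_univ _) h

/-- Part 3b. -/
theorem part3b_of (h2c : Part2cR) : Part3b := by
  intro S hS hok v
  have hN : 0 < S.length := List.length_pos_iff.2 hS
  have hsch := gsched h2c hN
  have hG := tG_passive S hS hok v
  have hu := vel_window h2c S hS v
  refine ⟨gtraj (ts S.length) (tth S.length) (tG S hS v) 0, ⟨hsch.traj_zero 0, fun t ht => ?_⟩,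
    fun Y hY t ht => ?_, fun k => ?_, fun t ht => ?_⟩
  · rw [hasDerivWithinAt_pi]
    intro i
    exact (hsch.traj_deriv hG hu 0 ht i).hasDerivWithinAt
  · obtain ⟨j, hj, _⟩ := hsch.exists_win ht
    have h1 := (hsch.traj_unique hG hu (X := Y) fun t ht => hasDerivWithinAt_pi.1 (hY.2 t ht)).2 j t hj
    rw [h1, hY.1, hsch.traj_win 0 hj]
  · refine ⟨ts S.length (k + 1), hsch.s_nonneg _, ?_⟩
    rw [hsch.traj_win 0 (j := k + 1) ⟨le_rfl, hsch.mono (Nat.le_succ _)⟩,
      hsch.frac_le _ le_rfl, zero_smul, add_zero, orbit_tG]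
  · obtain ⟨j, hj, _⟩ := hsch.exists_win ht
    refine ⟨gfrac (ts S.length) (tth S.length) j t, (hsch.frac_mem j t).1, (hsch.frac_mem j t).2, ?_⟩
    rw [hsch.traj_win 0 hj]
    cases j with
    | zero => left; simp [H195.orbit, tG]
    | succ k =>
      right
      refine ⟨k, ?_⟩
      have : H195.orbit (tG S hS v) 0 (k + 1 + 1) = H195.orbit (tG S hS v) 0 (k + 1)
        + tG S hS v (k + 1) (H195.orbit (tG S hS v) 0 (k + 1)) := rfl
      rw [← orbit_tG S hS v (k + 1), this, ← orbit_tG S hS v k]
      module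

end Vale.Agent.P113.H195
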